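import Vale.Agent.P277Z.Oka.All
import Vale.Agent.P269.Holo.Morse

/-!
# The closure of the graphs `ε η = s`: its ideal is the saturation, and it is analytic
-/

open Filter Topology Vale.Agent.P298.H941 Vale.Agent.P277Z.Oka

set_option linter.unusedSectionVars false

noncomputable section

namespace Vale.Agent.P269L.R

variable {E ι : Type} [NormedAddCommGroup E] [NormedSpace ℂ E] [Fintype ι]

/-- the equations `ε η - s` -/
def gr (s : ι → E → ℂ) (j : ι) (w : (E × (ι → ℂ)) × ℂ) : ℂ := w.2 * w.1.2 j - s j w.1.1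

/-- the union of the graphs of `s / ε` over `U` -/
def Gr (U : Set E) (s : ι → E → ℂ) : Set ((E × (ι → ℂ)) × ℂ) :=
  {w | w.1.1 ∈ U ∧ w.2 ≠ 0 ∧ ∀ j, w.2 * w.1.2 j = s j w.1.1}

/-- the deformation to the normal cone -/
def Bs (U : Set E) (s : ι → E → ℂ) : Set ((E × (ι → ℂ)) × ℂ) := closure (Gr U s)

variable {U : Set E} {s : ι → E → ℂ} {w : (E × (ι → ℂ)) × ℂ} {g : (E × (ι → ℂ)) × ℂ → ℂ}

theorem ana_eta (j : ι) (w : (E × (ι → ℂ)) × ℂ) :
    AnalyticAt ℂ (fun w : (E × (ι → ℂ)) × ℂ => w.1.2 j) w :=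
  ((ContinuousLinearMap.proj j : (ι → ℂ) →L[ℂ] ℂ).analyticAt _).comp
    (analyticAt_snd.comp analyticAt_fst)

theorem ana_base {f : E → ℂ} (hf : AnalyticAt ℂ f w.1.1) :
    AnalyticAt ℂ (fun w : (E × (ι → ℂ)) × ℂ => f w.1.1) w :=
  hf.comp_of_eq (analyticAt_fst.comp analyticAt_fst) rfl

theorem ana_gr (hs : ∀ j, AnalyticAt ℂ (s j) w.1.1) (j : ι) : AnalyticAt ℂ (gr s j) w :=
  (analyticAt_snd.mul (ana_eta j w)).sub (ana_base (hs j))

theorem tendsto_base (w : (E × (ι → ℂ)) × ℂ) :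
    Tendsto (fun w : (E × (ι → ℂ)) × ℂ => w.1.1) (𝓝 w) (𝓝 w.1.1) :=
  (continuous_fst.comp continuous_fst).tendsto w

theorem ev_ana (hs : ∀ j, AnalyticAt ℂ (s j) w.1.1) :
    ∀ᶠ y in 𝓝 w, ∀ j, AnalyticAt ℂ (s j) y.1.1 :=
  eventually_all.2 fun j => (tendsto_base w).eventually (hs j).eventually_analyticAt

theorem ev_nhds (hU : U ∈ 𝓝 w.1.1) : ∀ᶠ y in 𝓝 w, U ∈ 𝓝 y.1.1 :=
  (tendsto_base w).eventually (eventually_mem_nhds_iff.2 hU)

/-- a function that vanishes on a set near a point vanishes on its closure -/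
theorem van_closure {X : Type} [NormedAddCommGroup X] [NormedSpace ℂ X] {A : Set X} {x : X}
    {f : X → ℂ} (hf : AnalyticAt ℂ f x) (h : Van x A f) : Van x (closure A) f := by
  filter_upwards [hf.eventually_analyticAt, h.eventually] with y h1 h2 h3
  by_contra h4
  obtain ⟨z, h5, h6, h7⟩ :=
    ((mem_closure_iff_frequently.1 h3).and_eventually
      ((h1.continuousAt.eventually_ne h4).and h2)).exists
  exact h6 (h7 h5)

theorem van_of_in (hs : AnalyticAt ℂ g w) {N : ℕ} (h : In w (gr s) fun y => y.2 ^ N * g y) :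
    Van w (Bs U s) g :=
  van_closure hs (h.van.mono fun _ h1 h2 =>
    (mul_eq_zero.1 (h1 fun j => sub_eq_zero.2 (h2.2.2 j))).resolve_left (pow_ne_zero N h2.2.1))

theorem van_gr (hs : ∀ j, AnalyticAt ℂ (s j) w.1.1) (j : ι) : Van w (Bs U s) (gr s j) :=
  van_of_in (ana_gr hs j) (N := 0) ((In.self w (gr s) j).congr (.of_forall fun y => by simp))

variable [FiniteDimensional ℂ E]

/-- away from `ε = 0` the equations generate the ideal of the graph -/
theorem in_of_ne (hs : ∀ j, AnalyticAt ℂ (s j) w.1.1) (hw : w.2 ≠ 0) (hg : AnalyticAt ℂ g w)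
    (h : Van w (Zs (gr s)) g) : In w (gr s) g := by
  classical
  by_cases h0 : w ∈ Zs (gr s)
  swap
  · obtain ⟨j, hj⟩ := not_forall.1 h0
    exact In.of_unit (((In.self w (gr s) j).mul hg).congr (.of_forall fun y => mul_comm _ _))
      (ana_gr hs j) hj
  let Φ : (ι → ℂ) × E × ℂ → (E × (ι → ℂ)) × ℂ :=
    fun q => ((q.2.1, fun j => (q.1 j + s j q.2.1) / q.2.2), q.2.2)
  let Ψ : (E × (ι → ℂ)) × ℂ → (ι → ℂ) × E × ℂ := fun y => (fun j => gr s j y, y.1.1, y.2)
  have hΦΨ : ∀ y, y.2 ≠ 0 → Φ (Ψ y) = y := fun y hy =>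
    Prod.ext (Prod.ext rfl (funext fun j => by simp [Φ, Ψ, gr, hy])) rfl
  have e0 : Ψ w = (0, w.1.1, w.2) := Prod.ext (funext h0) rfl
  have e1 : Φ (0, w.1.1, w.2) = w := e0 ▸ hΦΨ w hw
  have hΦ : AnalyticAt ℂ Φ (0, w.1.1, w.2) :=
    ((analyticAt_fst.comp analyticAt_snd).prod (AnalyticAt.pi fun j =>
      ((((ContinuousLinearMap.proj j : (ι → ℂ) →L[ℂ] ℂ).analyticAt _).comp analyticAt_fst).add
        ((hs j).comp_of_eq (analyticAt_fst.comp analyticAt_snd) rfl)).div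
        (analyticAt_snd.comp analyticAt_snd) (by exact hw))).prod
      (analyticAt_snd.comp analyticAt_snd)
  have hΨ : AnalyticAt ℂ Ψ w := (AnalyticAt.pi (ana_gr hs)).prod
    ((analyticAt_fst.comp analyticAt_fst).prod analyticAt_snd)
  obtain ⟨k, hk, e⟩ := P269.Holo.hadamard (f := fun q => g (Φ q)) (hg.comp_of_eq hΦ e1)
  refine ⟨fun j y => k (Ψ y) (Pi.single j 1), fun j =>
    ((ContinuousLinearMap.apply ℂ ℂ (Pi.single j (1 : ℂ) : ι → ℂ)).analyticAt _).comp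
      (hk.comp_of_eq hΨ e0), ?_⟩
  have ht : Tendsto (fun y : (E × (ι → ℂ)) × ℂ => Φ (0, y.1.1, y.2)) (𝓝 w) (𝓝 w) := by
    have := (hΦ.continuousAt.comp (f := fun y : (E × (ι → ℂ)) × ℂ => ((0 : ι → ℂ), y.1.1, y.2))
      (by fun_prop)).tendsto
    rwa [Function.comp_apply, e1] at this
  filter_upwards [ht.eventually h, continuous_snd.continuousAt.eventually_ne hw] with y h1 h2
  have h3 := e (Ψ y)
  rw [hΦΨ y h2, h1 fun j => by simp [Φ, gr, mul_div_cancel₀ _ h2], zero_add] at h3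
  rw [h3]
  conv_lhs => rw [pi_eq_sum_univ' (Ψ y).1, map_sum]
  exact Finset.sum_congr rfl fun j _ => by rw [map_smul, smul_eq_mul, mul_comm]

/-- **The ideal of the closure is the saturation.** -/
theorem van_iff (hs : ∀ j, AnalyticAt ℂ (s j) w.1.1) (hU : U ∈ 𝓝 w.1.1) (hg : AnalyticAt ℂ g w) :
    Van w (Bs U s) g ↔ ∃ N : ℕ, In w (gr s) fun y => y.2 ^ N * g y := by
  refine ⟨fun h => ?_, fun ⟨_, h⟩ => van_of_in hg h⟩
  obtain ⟨m, r, h1, h2, h3⟩ := col_all _ ι w (gr s) g (ana_gr hs) hg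
  obtain ⟨N, c, hc, e⟩ := nul_all _ _ w r h1 Prod.snd analyticAt_snd (by
    filter_upwards [h3, h.eventually, ev_ana hs, ev_nhds hU, hg.eventually_analyticAt]
      with y k1 k2 k3 k4 k5 k6
    by_contra k7
    have k8 : In y (gr s) g := in_of_ne k3 k7 k5 (by
      filter_upwards [k2, (tendsto_base y).eventually k4,
        continuous_snd.continuousAt.eventually_ne k7] with z l1 l2 l3 l4
      exact l1 (subset_closure ⟨l2, l3, fun j => sub_eq_zero.1 (l4 j)⟩))
    exact one_ne_zero ((k1 (fun _ => 1) analyticAt_const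
      (k8.congr (.of_forall fun z => (one_mul _).symm))).van.self_of_nhds k6))
  refine ⟨N, (In.sum Finset.univ fun l _ => (h2 l).mul (hc l)).congr (e.mono fun y hy => ?_)⟩
  simp only [hy, Finset.sum_mul, mul_assoc]

/-- the exponent can be chosen uniformly near a point -/
theorem exists_exp (hs : ∀ j, AnalyticAt ℂ (s j) w.1.1) : ∃ N : ℕ, ∀ᶠ y in 𝓝 w, ∀ a M,
    AnalyticAt ℂ a y → In y (gr s) (fun z => z.2 ^ M * a z) → In y (gr s) fun z => z.2 ^ N * a z := by
  have := noe ((E × (ι → ℂ)) × ℂ)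
  have hp : ∀ (n : ℕ) (y : (E × (ι → ℂ)) × ℂ), AnalyticAt ℂ (fun z : (E × (ι → ℂ)) × ℂ => z.2 ^ n) y :=
    fun n y => analyticAt_snd.pow n
  let F : ℕ →o Ideal (O ((E × (ι → ℂ)) × ℂ)) :=
    ⟨fun n => (idl w (gr s)).colon {gm w Prod.snd ^ n}, monotone_nat_of_le_succ fun n a ha => by
      rw [Submodule.mem_colon_singleton, smul_eq_mul] at ha ⊢
      rw [pow_succ', mul_left_comm]
      exact Ideal.mul_mem_left _ _ ha⟩
  obtain ⟨N, hN⟩ := monotone_stabilizes_iff_noetherian.2 this F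
  have key : ∀ (n : ℕ) a, AnalyticAt ℂ a w →
      (In w (gr s) (fun z => a z * z.2 ^ n) ↔ gm w a ∈ F n) := fun n a ha => by
    rw [in_iff (ana_gr hs) (ha.fun_mul (hp n w)), gm_mul ha (hp n w), gm_pow analyticAt_snd]
    exact Submodule.mem_colon_singleton.symm
  obtain ⟨m, r, h1, h2, h3⟩ := col_all _ ι w (gr s) _ (ana_gr hs) (hp (N + 1) w)
  have h4 : ∀ l, In w (gr s) fun z => r l z * z.2 ^ N := fun l =>
    (key N _ (h1 l)).2 (hN (N + 1) N.le_succ ▸ (key _ _ (h1 l)).1 (h2 l))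
  refine ⟨N, ?_⟩
  filter_upwards [h3, eventually_all.2 fun l => (h4 l).eventually] with y k1 k2 a M
  induction M generalizing a with
  | zero => exact fun _ h => (h.mul (hp N y)).congr (.of_forall fun z => by simp)
  | succ M ih =>
    intro ha h
    have h5 := ih (fun z => z.2 * a z) (analyticAt_snd.mul ha)
      (h.congr (.of_forall fun z => by ring))
    obtain ⟨c, hc, e⟩ := k1 a ha (h5.congr (.of_forall fun z => by ring))
    refine (In.sum Finset.univ fun l _ => (k2 l).mul (hc l)).congr (e.mono fun z hz => ?_)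
    simp only [hz, Finset.mul_sum]
    exact Finset.sum_congr rfl fun l _ => by ring

/-- **The closure is analytic**, with generators of its ideal at all nearby points. -/
theorem exists_gen (hs : ∀ j, AnalyticAt ℂ (s j) w.1.1) (hU : U ∈ 𝓝 w.1.1) :
    ∃ (m : ℕ) (r : Fin m → (E × (ι → ℂ)) × ℂ → ℂ), (∀ l, AnalyticAt ℂ (r l) w) ∧
      ∀ᶠ y in 𝓝 w, (y ∈ Bs U s ↔ y ∈ Zs r) ∧
        ∀ a, AnalyticAt ℂ a y → (Van y (Bs U s) a ↔ In y r a) := by
  obtain ⟨N, hN⟩ := exists_exp hs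
  obtain ⟨m, r, h1, h2, h3⟩ := col_all _ ι w (gr s) (fun z => z.2 ^ N) (ana_gr hs)
    (analyticAt_snd.pow N)
  have h4 : ∀ l, Van w (Bs U s) (r l) := fun l =>
    van_of_in (h1 l) (N := N) ((h2 l).congr (.of_forall fun z => mul_comm _ _))
  refine ⟨m, r, h1, ?_⟩
  filter_upwards [hN, h3, ev_ana hs, ev_nhds hU, eventually_all.2 fun l => (h4 l).eventually]
    with y k1 k2 k3 k4 k5
  have k6 : ∀ a, AnalyticAt ℂ a y → (Van y (Bs U s) a ↔ In y r a) := fun a ha =>
    ⟨fun h => let ⟨M, hM⟩ := (van_iff k3 k4 ha).1 h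
      k2 a ha ((k1 a M ha hM).congr (.of_forall fun z => mul_comm _ _)),
    fun h => by
      filter_upwards [h.van, eventually_all.2 k5] with z l1 l2 l3 using l1 fun l => l2 l l3⟩
  refine ⟨⟨fun h l => (k5 l).self_of_nhds h, fun h => ?_⟩, k6⟩
  by_contra k7
  exact one_ne_zero (((k6 (fun _ => 1) analyticAt_const).1
    ((isClosed_closure.isOpen_compl.eventually_mem k7).mono fun z l1 l2 =>
      (l1 l2).elim)).van.self_of_nhds h)

end Vale.Agent.P269L.R
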