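import Vale.Agent.P269L.R.Alg
import Vale.Agent.P269L.R.Gr
import Vale.Agent.P269L.Rf.Fl
import Vale.Agent.P269L.L.Defs

/-!
# The special fibre of the deformation to the normal cone is the normal cone
-/

open Filter Topology MvPolynomial Vale.Agent.P298.H941 Vale.Agent.P277Z.Oka
open Vale.Agent.P269L.Rf Vale.Agent.P269L.L

set_option linter.unusedSectionVars false

noncomputable section

namespace Vale.Agent.P269L.R

section alg

variable {A ι : Type*} [CommRing A] {s : ι → A}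

theorem pow_mul_sub {p : MvPolynomial ι A} {n : ℕ} (h : p.IsHomogeneous n) :
    X none ^ n * rename some p - C (eval s p) ∈ Qal s := by
  let π := Ideal.Quotient.mk (Qal s)
  have h1 : ∀ j, π (X (some j)) * π (X none) = π (C (s j)) := fun j => by
    rw [← map_mul, mul_comm]
    exact Ideal.Quotient.eq.2 (Ideal.subset_span ⟨j, rfl⟩)
  have h2 := eval₂_scale (π.comp C) (fun j => π (X (some j))) (π (X none)) h
  have h3 : eval₂ (π.comp C) (fun j => π (X (some j))) p = π (rename some p) := by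
    rw [rename_eq_aeval, aeval_def, eval₂_comp_left]; rfl
  have h4 : eval₂ (π.comp C) (fun j => π (C (s j))) p = π (C (eval s p)) := by
    rw [eval, coe_eval₂Hom, ← RingHom.comp_apply π C, eval₂_comp_left]; rfl
  rw [← Ideal.Quotient.eq, map_mul, map_pow, mul_comm, ← h3, ← h2, funext h1, h4]

theorem res0_rename (p : MvPolynomial ι A) : res0 (rename some p) = p := by
  rw [res0, aeval_rename]
  exact aeval_X_left_apply p

theorem exists_lift {p : MvPolynomial ι A} (h : p ∈ Jal s) :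
    ∃ (P : MvPolynomial (Option ι) A) (k : ℕ), X none ^ k * P ∈ Qal s ∧ res0 P = p := by
  induction h using Submodule.span_induction with
  | mem p h =>
    obtain ⟨n, h1, h2⟩ := h
    obtain ⟨q, h3, h4⟩ := (Ideal.mem_span_pow_iff_exists_isHomogeneous s _).1 h2
    refine ⟨rename some p - X none * rename some q, n, ?_, by
      rw [map_sub, map_mul, res0_rename, res0, aeval_X, Option.elim, zero_mul, sub_zero]⟩
    convert sub_mem (pow_mul_sub (s := s) h1) (pow_mul_sub (s := s) h3) using 1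
    rw [h4]; ring
  | zero => exact ⟨0, 0, by simp, map_zero _⟩
  | add p q _ _ hp hq =>
    obtain ⟨P, k, h1, rfl⟩ := hp
    obtain ⟨Q, l, h2, rfl⟩ := hq
    refine ⟨P + Q, k + l, ?_, map_add _ _ _⟩
    convert add_mem (Ideal.mul_mem_left _ (X none ^ l) h1) (Ideal.mul_mem_left _ (X none ^ k) h2)
      using 1
    ring
  | smul q p _ hp =>
    obtain ⟨P, k, h1, rfl⟩ := hp
    refine ⟨rename some q * P, k, ?_, by rw [map_mul, res0_rename, smul_eq_mul]⟩
    rw [mul_left_comm]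
    exact Ideal.mul_mem_left _ _ h1

end alg

variable {E ι : Type} [NormedAddCommGroup E] [NormedSpace ℂ E] [Fintype ι]

/-- the ideal of the normal cone of `s = 0` in the germs at `(x, ξ)` -/
def Jan (x : E) (s : ι → E → ℂ) (ξ : ι → ℂ) : Ideal (O (E × (ι → ℂ))) :=
  (Jal fun j => gm x (s j)).map (evm E ξ)

/-- collecting `η` and `ε` -/
def lam (w : (E × (ι → ℂ)) × ℂ) : E × (Option ι → ℂ) := (w.1.1, fun o => o.elim w.2 w.1.2)

/-- separating `η` and `ε` -/
def lam' (z : E × (Option ι → ℂ)) : (E × (ι → ℂ)) × ℂ := ((z.1, fun j => z.2 (some j)), z.2 none)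

theorem ana_lam (w : (E × (ι → ℂ)) × ℂ) : AnalyticAt ℂ lam w :=
  (analyticAt_fst.comp analyticAt_fst).prod (AnalyticAt.pi fun o => by
    cases o with
    | none => exact analyticAt_snd
    | some j => exact ana_eta j w)

theorem ana_lam' (z : E × (Option ι → ℂ)) : AnalyticAt ℂ lam' z :=
  (analyticAt_fst.prod (AnalyticAt.pi fun j => ana_co E (some j) z)).prod (ana_co E none z)

theorem ana_inc {X : Type} [NormedAddCommGroup X] [NormedSpace ℂ X] (y : X) :
    AnalyticAt ℂ (fun y : X => (y, (0 : ℂ))) y := analyticAt_id.prod analyticAt_const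

/-- restriction of germs at `(y, 0)` to `ε = 0` -/
def rho {X : Type} [NormedAddCommGroup X] [NormedSpace ℂ X] (y : X) : O (X × ℂ) →ₐ[ℂ] O X :=
  pl (ana_inc y)

section rho

variable {X : Type} [NormedAddCommGroup X] [NormedSpace ℂ X] {y : X}

theorem rho_gm {g : X × ℂ → ℂ} (hg : AnalyticAt ℂ g (y, 0)) :
    rho y (gm (y, 0) g) = gm y fun z => g (z, 0) := pl_gm (ana_inc y) hg

theorem rho_surj (y : X) : Function.Surjective (rho y) := fun a =>
  let ⟨f, hf, e⟩ := gm_surj y a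
  ⟨_, (rho_gm (g := fun z => f z.1) (hf.comp_of_eq analyticAt_fst rfl)).trans e⟩

theorem ker_rho [FiniteDimensional ℂ X] (y : X) :
    RingHom.ker (rho y) = Ideal.span {gm (y, (0 : ℂ)) Prod.snd} := by
  refine le_antisymm (fun a ha => ?_) ((Ideal.span_singleton_le_iff_mem _).2
    ((rho_gm analyticAt_snd).trans (gm_zero y)))
  obtain ⟨g, hg, rfl⟩ := gm_surj (y, (0 : ℂ)) a
  rw [RingHom.mem_ker, rho_gm hg, 
    gm_eq_zero (f := fun z => g (z, 0)) (hg.comp_of_eq (ana_inc y) rfl)] at ha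
  obtain ⟨k, hk, e⟩ := P269.Holo.exists_div (f := fun p : ℂ × X => g (p.2, p.1)) (w := y)
    (hg.comp_of_eq (analyticAt_snd.prod analyticAt_fst) rfl)
  have hk' : AnalyticAt ℂ (fun z : X × ℂ => k (z.2, z.1)) (y, 0) :=
    hk.comp_of_eq (analyticAt_snd.prod analyticAt_fst) rfl
  refine Ideal.mem_span_singleton'.2 ⟨gm (y, 0) fun z => k (z.2, z.1), ?_⟩
  rw [← gm_mul hk' analyticAt_snd]
  refine gm_congr (hk'.mul analyticAt_snd) ?_
  filter_upwards [(continuous_fst.tendsto (y, (0 : ℂ))).eventually ha] with z hz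
  rw [show g z = _ from e (z.2, z.1), hz, zero_add, smul_eq_mul, mul_comm]

end rho

variable {U : Set E} {s : ι → E → ℂ} {x : E} {ξ : ι → ℂ}

theorem ana_li (y : E × (ι → ℂ)) : AnalyticAt ℂ (fun y : E × (ι → ℂ) => lam (y, 0)) y :=
  (ana_lam _).comp (ana_inc y)

theorem pl_evm (x : E) (ξ : ι → ℂ) (P : MvPolynomial (Option ι) (O E)) :
    pl (ana_li (x, ξ)) (evm E (lam ((x, ξ), 0)).2 P) = evm E ξ (res0 P) := by
  induction P using MvPolynomial.induction_on with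
  | C a =>
    obtain ⟨f, hf, rfl⟩ := gm_surj x a
    rw [res0, aeval_C, algebraMap_eq, ← gm_fst' _ hf, ← gm_fst' _ hf]
    exact pl_gm (ana_li (x, ξ)) (r := fun z => f z.1) (hf.comp_of_eq analyticAt_fst rfl)
  | add p q hp hq => simp only [map_add, hp, hq]
  | mul_X p o hp =>
    rw [map_mul, map_mul, map_mul, map_mul, hp, ← gm_co x, res0, aeval_X]
    refine congrArg _ ((pl_gm (ana_li (x, ξ)) (ana_co E o _)).trans ?_)
    cases o with
    | none => exact (gm_zero _).trans (map_zero _).symm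
    | some j => exact gm_co x ξ j

theorem map_Qal (hs : ∀ j, AnalyticAt ℂ (s j) x) (v : Option ι → ℂ) :
    (Qal fun j => gm x (s j)).map (evm E v) = idl (x, v) fun j z => gr s j (lam' z) := by
  rw [Qal, Ideal.map_span, ← Set.range_comp, idl]
  congr 2
  funext j
  rw [Function.comp_apply, map_sub, map_mul, ← gm_co x, ← gm_co x, ← gm_fst' _ (hs j),
    ← gm_mul (ana_co E _ _) (ana_co E _ _)]
  exact (gm_sub ((ana_co E _ _).fun_mul (ana_co E _ _))
    ((hs j).comp_of_eq analyticAt_fst rfl)).symm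

theorem in_lam (hs : ∀ j, AnalyticAt ℂ (s j) x) {v : Option ι → ℂ} {G : E × (Option ι → ℂ) → ℂ}
    (hG : AnalyticAt ℂ G (x, v)) (k : ℕ) :
    In (x, v) (fun j z => gr s j (lam' z)) (fun z => z.2 none ^ k * G z) ↔
      evm E v (X none ^ k) * gm (x, v) G ∈ (Qal fun j => gm x (s j)).map (evm E v) := by
  rw [map_Qal hs, map_pow, ← gm_co x, ← gm_pow (ana_co E _ _),
    ← gm_mul ((ana_co E _ _).fun_pow k) hG]
  exact in_iff (fun j => (ana_gr (w := lam' (x, v)) hs j).comp (ana_lam' _))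
    (((ana_co E _ _).fun_pow k).fun_mul hG)

variable [FiniteDimensional ℂ E]

/-- **The functions vanishing on the closure of the graphs restrict to the initial forms.** -/
theorem map_vi (hs : ∀ j, AnalyticAt ℂ (s j) x) (hU : U ∈ 𝓝 x) (ξ : ι → ℂ) :
    (vi ((x, ξ), (0 : ℂ)) (Bs U s)).map (rho (x, ξ)) = Jan x s ξ := by
  have e0 : lam' (lam ((x, ξ), (0 : ℂ))) = ((x, ξ), 0) := rfl
  refine le_antisymm (Ideal.map_le_iff_le_comap.2 fun a ha => ?_)
    (Ideal.map_le_iff_le_comap.2 fun p hp => ?_)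
  · obtain ⟨g, hg, rfl⟩ := gm_surj ((x, ξ), (0 : ℂ)) a
    obtain ⟨N, h⟩ := (van_iff (w := ((x, ξ), 0)) hs hU hg).1 ((mem_vi hg).1 ha)
    have hG : AnalyticAt ℂ (fun z => g (lam' z)) (lam ((x, ξ), 0)) := hg.comp_of_eq (ana_lam' _) e0
    have h1 := (in_lam hs hG N).1 (h.comp (ana_lam' _) e0)
    rw [mul_comm, ← smul_eq_mul, ← Submodule.mem_colon_singleton, ← colon_evm] at h1
    have h2 : ((Qal fun j => gm x (s j)).colon {X none ^ N}).map (evm E (lam ((x, ξ), 0)).2) ≤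
        (Jan x s ξ).comap (pl (ana_li (x, ξ))) := Ideal.map_le_iff_le_comap.2 fun P hP => by
      rw [Submodule.mem_colon_singleton, smul_eq_mul, mul_comm] at hP
      rw [Ideal.mem_comap, Ideal.mem_comap, pl_evm]
      exact Ideal.mem_map_of_mem _ (res_mem _ hP)
    have h3 := h2 h1
    rw [Ideal.mem_comap] at h3 ⊢
    rw [rho_gm hg]
    exact (pl_gm (ana_li (x, ξ)) hG) ▸ h3
  · obtain ⟨P, k, h1, rfl⟩ := exists_lift hp
    obtain ⟨G, hG, e⟩ := gm_surj (lam ((x, ξ), (0 : ℂ))) (evm E (lam ((x, ξ), 0)).2 P)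
    have h2 := (in_lam hs hG k).2 (by
      rw [show gm (x, _) G = _ from e]
      exact map_mul (evm E _) _ P ▸ Ideal.mem_map_of_mem _ h1)
    have hg : AnalyticAt ℂ (fun w => G (lam w)) ((x, ξ), 0) := hG.comp (ana_lam _)
    rw [Ideal.mem_comap, ← pl_evm x, ← e, pl_gm (ana_li (x, ξ)) hG]
    exact rho_gm hg ▸ Ideal.mem_map_of_mem _ ((mem_vi hg).2
      (van_of_in hg (N := k) (h2.comp (ana_lam ((x, ξ), 0)) rfl)))

theorem mem_Jan (hs : ∀ j, AnalyticAt ℂ (s j) x) (hU : U ∈ 𝓝 x) {f : E × (ι → ℂ) → ℂ}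
    (hf : AnalyticAt ℂ f (x, ξ)) : gm (x, ξ) f ∈ Jan x s ξ ↔ ∃ g, AnalyticAt ℂ g ((x, ξ), 0) ∧
      Van ((x, ξ), 0) (Bs U s) g ∧ ∀ᶠ y in 𝓝 (x, ξ), g (y, 0) = f y := by
  rw [← map_vi hs hU, Ideal.mem_map_iff_of_surjective _ (rho_surj _)]
  refine ⟨fun ⟨a, ha, e⟩ => ?_, fun ⟨g, hg, h, e⟩ => ⟨_, (mem_vi hg).2 h,
    (rho_gm hg).trans (gm_congr (hg.comp_of_eq (ana_inc _) rfl) e)⟩⟩
  obtain ⟨g, hg, rfl⟩ := gm_surj ((x, ξ), (0 : ℂ)) a
  exact ⟨g, hg, (mem_vi hg).1 ha,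
    (gm_eq_iff (hg.comp_of_eq (ana_inc _) rfl) hf).1 ((rho_gm hg).symm.trans e)⟩

/-- **The support of the cone is the special fibre of the closure.** -/
theorem Jan_ne_top (hs : ∀ j, AnalyticAt ℂ (s j) x) (hU : U ∈ 𝓝 x) :
    Jan x s ξ ≠ ⊤ ↔ ((x, ξ), (0 : ℂ)) ∈ Bs U s := by
  rw [Ne, Ideal.eq_top_iff_one, ← gm_one (x, ξ), mem_Jan hs hU analyticAt_const]
  refine ⟨fun h => by_contra fun k => h ⟨fun _ => 1, analyticAt_const,
    (isClosed_closure.isOpen_compl.eventually_mem k).mono fun _ l1 l2 => (l1 l2).elim,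
    .of_forall fun _ => rfl⟩, fun h ⟨g, _, h1, h2⟩ => ?_⟩
  exact one_ne_zero (h2.self_of_nhds.symm.trans (h1.self_of_nhds h))

/-- the local ring of the cone as a quotient of the germs at `((x, ξ), 0)` -/
def rq (x : E) (s : ι → E → ℂ) (ξ : ι → ℂ) :
    O ((E × (ι → ℂ)) × ℂ) →+* O (E × (ι → ℂ)) ⧸ Jan x s ξ :=
  (Ideal.Quotient.mk _).comp (rho (x, ξ) : O _ →+* O _)

theorem rq_surj (x : E) (s : ι → E → ℂ) (ξ : ι → ℂ) : Function.Surjective (rq x s ξ) :=
  Ideal.Quotient.mk_surjective.comp (rho_surj _)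

theorem ker_rq (hs : ∀ j, AnalyticAt ℂ (s j) x) (hU : U ∈ 𝓝 x) (ξ : ι → ℂ) :
    RingHom.ker (rq x s ξ) =
      vi ((x, ξ), (0 : ℂ)) (Bs U s) ⊔ Ideal.span {gm ((x, ξ), (0 : ℂ)) Prod.snd} := by
  rw [← ker_rho, rq, ← RingHom.comap_ker, Ideal.mk_ker, ← map_vi hs hU]
  exact Ideal.comap_map_of_surjective _ (rho_surj _) _

theorem an_Bs {w : (E × (ι → ℂ)) × ℂ} (hs : ∀ j, AnalyticAt ℂ (s j) w.1.1) (hU : U ∈ 𝓝 w.1.1) :
    P287Q.H3.An (Bs U s) w :=
  let ⟨m, r, h1, h2⟩ := exists_gen hs hU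
  ⟨m, fun z l => r l z, AnalyticAt.pi h1, h2.mono fun _ h => h.1.trans funext_iff.symm⟩

omit [FiniteDimensional ℂ E] in
theorem dense_Bs {z : (E × (ι → ℂ)) × ℂ} (h : z ∈ Bs U s) :
    z ∈ closure (Bs U s \ {z | z.2 = 0}) :=
  closure_mono (show Gr U s ⊆ _ from fun _ k => And.intro (subset_closure k) k.2.1) h

end Vale.Agent.P269L.R
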