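import Mathlib

/-!
# Initial forms of an ideal and the saturation of the graph ideal
-/

open MvPolynomial

noncomputable section

namespace Vale.Agent.P269L.R

variable {A ι : Type*} [CommRing A] (s : ι → A)

/-- the ideal of the normal cone of `(s)` in the trivial bundle: spanned by the forms `p` of degree
`n` with `p(s) ∈ (s)^(n+1)` -/
def Jal : Ideal (MvPolynomial ι A) :=
  Ideal.span {p | ∃ n, p.IsHomogeneous n ∧ eval s p ∈ Ideal.span (Set.range s) ^ (n + 1)}

/-- the ideal of `ε η = s` -/
def Qal : Ideal (MvPolynomial (Option ι) A) :=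
  Ideal.span (Set.range fun j => X none * X (some j) - C (s j))

/-- restriction to `ε = 0` -/
def res0 : MvPolynomial (Option ι) A →ₐ[A] MvPolynomial ι A := aeval fun o => o.elim 0 X

/-- `ε ↦ T⁻¹`, `η ↦ s T` -/
def lau : MvPolynomial (Option ι) A →ₐ[A] LaurentPolynomial A :=
  aeval fun o => o.elim (.T (-1)) fun j => .C (s j) * .T 1

theorem lau_Q {P : MvPolynomial (Option ι) A} (h : P ∈ Qal s) : lau s P = 0 := by
  refine (Ideal.span_le.2 ?_ : Qal s ≤ RingHom.ker (lau s)) h
  rintro _ ⟨j, rfl⟩
  simp only [SetLike.mem_coe, RingHom.mem_ker, map_sub, map_mul, lau, aeval_X, aeval_C,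
    Option.elim, ← LaurentPolynomial.C_eq_algebraMap]
  rw [mul_left_comm, ← LaurentPolynomial.T_add, neg_add_cancel, LaurentPolynomial.T_zero, mul_one,
    sub_self]

theorem coeff_mul_T (f : LaurentPolynomial A) (m n : ℤ) :
    (f * LaurentPolynomial.T n).coeff m = f.coeff (m - n) := by
  rw [LaurentPolynomial.T, AddMonoidAlgebra.coeff_mul_single_apply, mul_one, sub_eq_add_neg]

theorem coeff_C_mul' (a : A) (f : LaurentPolynomial A) (m : ℤ) :
    (LaurentPolynomial.C a * f).coeff m = a * f.coeff m := by
  rw [← LaurentPolynomial.smul_eq_C_mul]; rfl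

theorem lau_coeff (P : MvPolynomial (Option ι) A) (m : ℤ) :
    (lau s P).coeff m ∈ Ideal.span (Set.range s) ^ m.toNat := by
  induction P using MvPolynomial.induction_on generalizing m with
  | C a =>
    rw [lau, aeval_C, ← LaurentPolynomial.C_eq_algebraMap, LaurentPolynomial.C_apply]
    split_ifs with h
    · simp [h]
    · exact zero_mem _
  | add p q hp hq => rw [map_add]; exact add_mem (hp m) (hq m)
  | mul_X p o hp =>
    rw [map_mul, lau, aeval_X]
    cases o with
    | none =>
      rw [Option.elim, coeff_mul_T]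
      exact Ideal.pow_le_pow_right (by omega) (hp _)
    | some j =>
      rw [Option.elim, mul_left_comm, coeff_C_mul', coeff_mul_T]
      have := Ideal.mul_mem_mul (Ideal.subset_span (Set.mem_range_self (f := s) j)) (hp (m - 1))
      rw [← pow_succ'] at this
      exact Ideal.pow_le_pow_right (by omega) this

theorem eval₂_scale {S : Type*} [CommRing S] (f : A →+* S) (v : ι → S) (t : S)
    {p : MvPolynomial ι A} {n : ℕ} (h : p.IsHomogeneous n) :
    eval₂ f (fun j => v j * t) p = eval₂ f v p * t ^ n := by
  rw [eval₂_eq, eval₂_eq, Finset.sum_mul]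
  refine Finset.sum_congr rfl fun d hd => ?_
  rw [h.degree_eq_sum_deg_support hd, mul_assoc, ← Finset.prod_pow_eq_pow_sum,
    ← Finset.prod_mul_distrib]
  simp only [mul_pow]

theorem lau_hom {p : MvPolynomial ι A} {n : ℕ} (h : p.IsHomogeneous n) :
    lau s (rename some p) = .C (eval s p) * .T n := by
  rw [lau, aeval_rename, aeval_def]
  refine (eval₂_scale _ (fun j => LaurentPolynomial.C (s j)) (.T 1) h).trans ?_
  rw [LaurentPolynomial.T_pow, mul_one, eval, coe_eval₂Hom, eval₂_comp_left]
  rfl

theorem lau_rename (p : MvPolynomial ι A) (n : ℕ) :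
    (lau s (rename some p)).coeff n = eval s (homogeneousComponent n p) := by
  conv_lhs => rw [← sum_homogeneousComponent p]
  simp only [map_sum, fun m => lau_hom s (homogeneousComponent_isHomogeneous m p),
    AddMonoidAlgebra.coeff_sum, Finsupp.finsetSum_apply, coeff_C_mul', LaurentPolynomial.T_apply,
    Nat.cast_inj, mul_ite, mul_one, mul_zero, Finset.sum_ite_eq', Finset.mem_range]
  split_ifs with h
  · rfl
  · rw [homogeneousComponent_eq_zero _ _ (by omega), map_zero]

theorem exists_div (P : MvPolynomial (Option ι) A) :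
    ∃ P', P = rename some (res0 P) + P' * X none := by
  induction P using MvPolynomial.induction_on with
  | C a => exact ⟨0, by simp [res0]⟩
  | add p q hp hq =>
    obtain ⟨p', hp⟩ := hp
    obtain ⟨q', hq⟩ := hq
    exact ⟨p' + q', by rw [map_add, map_add]; linear_combination hp + hq⟩
  | mul_X p o hp =>
    obtain ⟨p', hp⟩ := hp
    cases o with
    | none => exact ⟨p, by simp [res0]⟩
    | some j =>
      refine ⟨p' * X (some j), ?_⟩
      rw [map_mul, map_mul, show res0 (X (some j) : MvPolynomial (Option ι) A) = X j by simp [res0],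
        rename_X]
      linear_combination hp * X (some j)

theorem res_mem {P : MvPolynomial (Option ι) A} {k : ℕ} (h : X none ^ k * P ∈ Qal s) :
    res0 P ∈ Jal s := by
  have h0 : lau s P = 0 := by
    have := lau_Q s h
    rw [map_mul, map_pow, lau, aeval_X] at this
    exact ((LaurentPolynomial.isUnit_T _).pow k).mul_right_eq_zero.1 this
  obtain ⟨P', e⟩ := exists_div P
  rw [← sum_homogeneousComponent (res0 P)]
  refine sum_mem fun n _ => Ideal.subset_span ⟨n, homogeneousComponent_isHomogeneous n _, ?_⟩
  have h1 := congrArg (fun f : LaurentPolynomial A => f.coeff n) (congrArg (lau s) e)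
  simp only [h0, map_add, map_mul] at h1
  rw [AddMonoidAlgebra.coeff_add, Finsupp.add_apply, lau_rename, lau, aeval_X, Option.elim,
    coeff_mul_T] at h1
  have h2 := lau_coeff s P' (n - -1)
  rw [show ((n : ℤ) - -1).toNat = n + 1 by omega] at h2
  rw [eq_neg_of_add_eq_zero_left h1.symm]
  exact neg_mem h2

end Vale.Agent.P269L.R
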